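import Vale.Agent.P305GH.Link
import Vale.Agent.P305GM.Acct
import Vale.Agent.P305BG.Plan
import Vale.Agent.P305EN.Link
import Vale.Agent.P305FL.Defs
import Vale.Agent.P305O.Defs

/-!
# One phase of the matching algorithm: state, invariant, and the statements of the blocks

Names: a copy of a vertex has a name `4 c` with `c ≥ 1`, its slots have the names `4 c + 1 + i`.
-/

namespace Vale.Agent.P305GL

open Vale.Agent.P305 Vale.Agent.P305E Vale.Agent.P305C Vale.Agent.P305LC Vale.Agent.P305N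
  Vale.Agent.P305BL Vale.Agent.P305GH Vale.Agent.P305BG Vale.Agent.P305O Finset
open Vale.Agent.P305FL (PL Lev pot)
open Vale.Agent.P305GM (Acc)

/-! ### Parameters -/

/-- The parameters that the programs see. -/
structure Pr where
  b : ℕ
  n : ℕ
  adj : Arr (List ℕ)
  U : ℕ
  Q : ℕ
  F : ℕ
  c : ℕ
  Vm : ℕ

/-- Encoding. -/
def Pr.enc (p : Pr) := (p.b, p.n, p.adj, p.U, p.Q, p.F, p.c, p.Vm)
instance : Rep Pr := Rep.comap Pr.enc
@[fun_prop] theorem Pr.pb : Pure Pr.b := Pure.of_comap Pr.enc (h := fun p => p.1) (by fun_prop)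
@[fun_prop] theorem Pr.pn : Pure Pr.n := Pure.of_comap Pr.enc (h := fun p => p.2.1) (by fun_prop)
@[fun_prop] theorem Pr.padj : Pure Pr.adj :=
  Pure.of_comap Pr.enc (h := fun p => p.2.2.1) (by fun_prop)
@[fun_prop] theorem Pr.pU : Pure Pr.U :=
  Pure.of_comap Pr.enc (h := fun p => p.2.2.2.1) (by fun_prop)
@[fun_prop] theorem Pr.pQ : Pure Pr.Q :=
  Pure.of_comap Pr.enc (h := fun p => p.2.2.2.2.1) (by fun_prop)
@[fun_prop] theorem Pr.pF : Pure Pr.F :=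
  Pure.of_comap Pr.enc (h := fun p => p.2.2.2.2.2.1) (by fun_prop)
@[fun_prop] theorem Pr.pc : Pure Pr.c :=
  Pure.of_comap Pr.enc (h := fun p => p.2.2.2.2.2.2.1) (by fun_prop)
@[fun_prop] theorem Pr.pVm : Pure Pr.Vm :=
  Pure.of_comap Pr.enc (h := fun p => p.2.2.2.2.2.2.2) (by fun_prop)
@[fun_prop] theorem Pr.pmk {α : Type} [Rep α] {b n U Q F c Vm : α → ℕ} {adj : α → Arr (List ℕ)}
    (h1 : Pure b) (h2 : Pure n) (h3 : Pure adj) (h4 : Pure U) (h5 : Pure Q) (h6 : Pure F)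
    (h7 : Pure c) (h8 : Pure Vm) :
    Pure fun z => Pr.mk (b z) (n z) (adj z) (U z) (Q z) (F z) (c z) (Vm z) :=
  Pure.to_comap Pr.enc (by unfold Pr.enc; fun_prop)

/-- The degree of `v`. -/
def Pr.deg (p : Pr) (v : ℕ) : ℕ :=
  if (p.adj.get v).isEmpty = true then 0 else if (p.adj.get v).tail.isEmpty = true then 1 else
    if (p.adj.get v).tail.tail.isEmpty = true then 2 else 3

/-- The neighbour number `i` of `v`. -/
def Pr.nbr (p : Pr) (v i : ℕ) : ℕ :=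
  if i = 0 then (p.adj.get v).headD 0 else if i = 1 then (p.adj.get v).tail.headD 0 else
    (p.adj.get v).tail.tail.headD 0

/-- The number of `u` among the neighbours of `v`. -/
def Pr.idx (p : Pr) (v u : ℕ) : ℕ := if p.nbr v 0 = u then 0 else if p.nbr v 1 = u then 1 else 2

/-- All parameters: the graph, the word bound, the quality `Γ` of all tools, the bound `Vx` for the
junk, the number `R` of roots, the gap `K`. -/
structure Pm extends Pr where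
  A : ℕ → ℕ → Prop
  B : ℕ
  Γ : ℕ
  Vx : ℕ
  R : ℕ
  K : ℕ

/-- Debt per level and vertex. -/
def Pm.D (x : Pm) : ℕ := x.Γ ^ 3
/-- Debt per vertex. -/
def Pm.al (x : Pm) : ℕ := x.Γ ^ 5
/-- The price of the credit of the levels. -/
def Pm.Cf (x : Pm) : ℕ := 8 * x.Γ ^ 3 + 10
/-- The price of the credit of the vertices. -/
def Pm.La (x : Pm) : ℕ := x.Γ ^ 12

/-- The tools: the box, the fractional matching, the solver for bipartite matchings. -/
structure Env (β : Type) [Rep β] where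
  X : Bx β
  N : Ops
  bm : ℕ → List Tr → M (List Tr)
  cX : ℕ
  cN : ℕ
  cB : ℕ
  gX : ℕ → ℕ
  gN : ℕ → ℕ
  gB : ℕ → ℕ
  I : ℕ → ℕ → ℕ → OG → β → ℕ → Prop
  hX : BoxOK False X cX gX I
  hN : NetOK N cN gN
  hB : BmOK bm cB gB

variable {β : Type} [Rep β]

/-- The conditions on the parameters. -/
structure Pm.OK (x : Pm) (E : Env β) : Prop where
  adj : Adj3 x.n x.A x.adj
  big : 1000 ≤ x.Γ
  bG : x.b + 2 ≤ x.Γ
  wX : 2 ^ (E.cX * (x.b + 1)) ≤ x.B
  wN : 2 ^ (E.cN * (x.b + 1)) ≤ x.B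
  wB : 2 ^ (E.cB * (x.b + 1)) ≤ x.B
  wd : 4 ^ (x.b + 2) ≤ x.B
  gX : E.gX x.b ≤ x.Γ
  gN : E.gN x.b ≤ x.Γ
  gB : 40 * (E.gB x.b + 1) ≤ x.Γ
  pow : ∃ u, x.U = 2 ^ u
  Q0 : 0 < x.Q
  QF : x.Q < x.F
  Fb : x.F ≤ 2 ^ x.b
  V1 : 4 * x.al * x.Vm ≤ x.U
  V2 : x.U ≤ 8 * x.al * x.Vm
  V3 : 64 * (2 * x.Γ * x.Q + 1) ≤ x.Vm
  Vx : 4 * (2 * x.Γ * x.Q + 1) * x.c ≤ x.Vx
  sz : 64 * (x.n + x.Vx + 1) ≤ 2 ^ x.b
  c0 : 0 < x.c
  Uc : 8 * x.U * x.c ≤ 2 ^ x.b
  inf : x.Γ * (16 * (x.n + x.Vx + 1)) < x.F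
  gain : 8 * x.al * x.n ≤ x.U * x.c
  gap : 3 * x.c * x.Q + x.Γ * (16 * (x.n + x.Vx + 1)) < x.K * x.Q
  Vn : x.Vx ≤ x.n

/-! ### The state -/

/-- The state without levels and box. `own v`: the live name (inner copy or node) that contains
the vertex `v`, or `0`; `cid v`: the name of the last copy of `v`; `vx c`: the vertex of the copy
`4 c`; `mem`, `sz`: the vertices of a live name and their number; `top`: the node of the store;
`nc`: the number of the next copy; `cm`: the number of commits. -/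
structure S where
  own : Arr ℕ
  mt : Arr ℕ
  cid : Arr ℕ
  vx : Arr ℕ
  mem : Arr (List ℕ)
  sz : Arr ℕ
  top : Arr ℕ
  bs : P305BL.St
  ns : NT
  nc : ℕ
  cm : ℕ

/-- Encoding. -/
def S.enc (s : S) := (s.own, s.mt, s.cid, s.vx, s.mem, s.sz, s.top, s.bs, s.ns, s.nc, s.cm)
instance : Rep S := Rep.comap S.enc
@[fun_prop] theorem S.pown : Pure S.own := Pure.of_comap S.enc (h := fun p => p.1) (by fun_prop)
@[fun_prop] theorem S.pmt : Pure S.mt := Pure.of_comap S.enc (h := fun p => p.2.1) (by fun_prop)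
@[fun_prop] theorem S.pcid : Pure S.cid :=
  Pure.of_comap S.enc (h := fun p => p.2.2.1) (by fun_prop)
@[fun_prop] theorem S.pvx : Pure S.vx :=
  Pure.of_comap S.enc (h := fun p => p.2.2.2.1) (by fun_prop)
@[fun_prop] theorem S.pmem : Pure S.mem :=
  Pure.of_comap S.enc (h := fun p => p.2.2.2.2.1) (by fun_prop)
@[fun_prop] theorem S.psz : Pure S.sz :=
  Pure.of_comap S.enc (h := fun p => p.2.2.2.2.2.1) (by fun_prop)
@[fun_prop] theorem S.ptop : Pure S.top :=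
  Pure.of_comap S.enc (h := fun p => p.2.2.2.2.2.2.1) (by fun_prop)
@[fun_prop] theorem S.pbs : Pure S.bs :=
  Pure.of_comap S.enc (h := fun p => p.2.2.2.2.2.2.2.1) (by fun_prop)
@[fun_prop] theorem S.pns : Pure S.ns :=
  Pure.of_comap S.enc (h := fun p => p.2.2.2.2.2.2.2.2.1) (by fun_prop)
@[fun_prop] theorem S.pnc : Pure S.nc :=
  Pure.of_comap S.enc (h := fun p => p.2.2.2.2.2.2.2.2.2.1) (by fun_prop)
@[fun_prop] theorem S.pcm : Pure S.cm :=
  Pure.of_comap S.enc (h := fun p => p.2.2.2.2.2.2.2.2.2.2) (by fun_prop)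
@[fun_prop] theorem S.pmk {α : Type} [Rep α] {own mt cid vx sz top : α → Arr ℕ}
    {mem : α → Arr (List ℕ)} {bs : α → P305BL.St} {ns : α → NT} {nc cm : α → ℕ} (h1 : Pure own)
    (h2 : Pure mt) (h3 : Pure cid) (h4 : Pure vx) (h5 : Pure mem) (h6 : Pure sz) (h7 : Pure top)
    (h8 : Pure bs) (h9 : Pure ns) (h10 : Pure nc) (h11 : Pure cm) : Pure fun z =>
      S.mk (own z) (mt z) (cid z) (vx z) (mem z) (sz z) (top z) (bs z) (ns z) (nc z) (cm z) :=
  Pure.to_comap S.enc (by unfold S.enc; fun_prop)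

/-- The vertex of a name (copy or slot). -/
def S.vn (s : S) (z : ℕ) : ℕ := s.vx.get (z / 4)

/-- The live name that owns the name `z` (copy or slot), or `0`. -/
def S.res (s : S) (z : ℕ) : ℕ :=
  if s.cid.get (s.vn z) / 4 = z / 4 then s.own.get (s.vn z) else 0

/-- The outer vertex of the arc with the key `k`. -/
def S.nb (s : S) (p : Pr) (k : ℕ) : ℕ := p.nbr (s.vn (k / 3)) (k % 3)

/-- The other end of the edge of the slot `a`. -/
def S.far (s : S) (p : Pr) (a : ℕ) : ℕ := p.nbr (s.vn a) (a % 4 - 1)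

section pure
variable {α : Type} [Rep α] {p : α → Pr} {s : α → S} {u v : α → ℕ}

@[fun_prop] theorem Pr.pdeg (hp : Pure p) (hv : Pure v) : Pure fun a => (p a).deg (v a) := by
  unfold Pr.deg; fun_prop
@[fun_prop] theorem Pr.pnbr (hp : Pure p) (hv : Pure v) (hu : Pure u) :
    Pure fun a => (p a).nbr (v a) (u a) := by
  unfold Pr.nbr; fun_prop
@[fun_prop] theorem Pr.pidx (hp : Pure p) (hv : Pure v) (hu : Pure u) :
    Pure fun a => (p a).idx (v a) (u a) := by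
  unfold Pr.idx; fun_prop
@[fun_prop] theorem S.pvn (hs : Pure s) (hv : Pure v) : Pure fun a => (s a).vn (v a) := by
  unfold S.vn; fun_prop
@[fun_prop] theorem S.pres (hs : Pure s) (hv : Pure v) : Pure fun a => (s a).res (v a) := by
  unfold S.res; fun_prop
@[fun_prop] theorem S.pnb (hs : Pure s) (hp : Pure p) (hv : Pure v) :
    Pure fun a => (s a).nb (p a) (v a) := by
  unfold S.nb; fun_prop
@[fun_prop] theorem S.pfar (hs : Pure s) (hp : Pure p) (hv : Pure v) :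
    Pure fun a => (s a).far (p a) (v a) := by
  unfold S.far; fun_prop

end pure

/-- Labelled vertices. -/
def S.live (s : S) (n : ℕ) : Finset ℕ := (range n).filter fun v => s.own.get v ≠ 0

/-- Vertices without a label that are matched. -/
def S.un (s : S) (n : ℕ) : Finset ℕ :=
  (range n).filter fun v => s.own.get v = 0 ∧ s.mt.get v ≠ v

/-- Discarded vertices. -/
def S.disc (s : S) (n : ℕ) : Finset ℕ :=
  (range n).filter fun v => s.own.get v = 0 ∧ s.mt.get v = v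

/-- The credit of the labelled vertices. -/
def S.psi (s : S) (x : Pm) : ℕ :=
  ∑ v ∈ s.live x.n, (x.b + 2 - Nat.size (s.sz.get (s.own.get v)))

/-- The ghost state: the graph of all copies, the view of the fractional matching, the removed
volume, the number of starving prunes, the losses, the slack in the condition of Hall. -/
structure Gs where
  H : Hs
  V : P305N.Vw
  vj : ℕ
  st : ℕ
  ls : ℕ
  be : ℕ

/-- What the levels see. -/
def fv (s : S) (g : Gs) : P305FL.Vw := ⟨4 * s.nc, g.V.I ∪ g.V.P, s.res, s.sz.get, g.V.dt⟩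

/-- The bound for the mass of all batches. -/
def bud (x : Pm) (s : S) (g : Gs) : ℕ := 2 * x.U * s.cm + x.U * g.st + x.al * g.vj

/-- The edge number `i` of the outer vertex `v` needs no further attention. -/
def Done (x : Pm) (s : S) (g : Gs) (v i : ℕ) : Prop :=
  s.own.get (x.nbr v i) = s.own.get v ∨
    (s.own.get (x.nbr v i) = 0 ∧ s.mt.get (x.nbr v i) = x.nbr v i) ∨
    ∃ k, k / 3 = s.own.get (x.nbr v i) ∧ g.V.tl k = s.own.get v

/-- The invariant without levels and box. `cur`: the slot that is being examined; `Nw`: outer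
copies whose slots are still to be made. -/
structure Core (x : Pm) (s : S) (g : Gs) (cur : Option ℕ) (Nw : List ℕ) : Prop where
  net : P305N.Inv x.b x.U g.V s.ns
  gh : g.H.OK x.Q x.F x.Γ x.R
  lk : P305GH.Lk x.F g.H g.V
  own : ∀ v, s.own.get v ≠ 0 → v < x.n ∧ (s.own.get v ∈ g.V.I ∨ s.own.get v ∈ g.V.P) ∧
    s.cid.get v % 4 = 0 ∧ s.cid.get v < 4 * s.nc ∧ s.vn (s.cid.get v) = v
  self : ∀ y, y ∈ g.V.I ∨ y ∈ g.V.P → s.own.get (s.vn y) = y ∧ s.cid.get (s.vn y) = y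
  mem : ∀ y, y ∈ g.V.I ∨ y ∈ g.V.P → (s.mem.get y).Nodup ∧
    (∀ v, v ∈ s.mem.get y ↔ s.own.get v = y) ∧ s.sz.get y = (s.mem.get y).length
  inn : ∀ v, s.own.get v ∈ g.V.I → s.cid.get v = s.own.get v
  out : ∀ v, s.own.get v ∈ g.V.P → s.cid.get v ∈ g.H.O
  node : ∀ p ∈ g.V.P, s.bs.Node x.n x.A (s.top.get p) ∧
    ∀ v, v ∈ s.bs.V x.n (s.top.get p) ↔ s.own.get v = p
  nx : x.n ≤ s.bs.nx ∧ s.bs.nx + g.V.I.card ≤ x.n + s.nc
  arc : ∀ k, g.V.tl k ≠ 0 → k % 3 < x.deg (s.vn (k / 3)) ∧ s.own.get (s.nb x.toPr k) = g.V.tl k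
  pmo : PMon x.A (s.un x.n) s.mt.get
  ndO : ∀ a ∈ g.H.O, g.H.nd a = s.res a
  jk : ∀ a ∈ g.H.J, s.res a = 0
  rng : ∀ a ∈ g.H.G.V, a < 4 * s.nc ∧ (g.H.w a = 0 ↔ a % 4 ≠ 0)
  cop : ∀ j, 0 < j → j < s.nc → 4 * j ∈ g.H.G.V
  sl : ∀ a ∈ g.H.G.slot, a % 4 ≤ x.deg (s.vn a)
  pend : ∀ v, s.own.get v ∈ g.V.P → ∀ i < x.deg v, Done x s g v i ∨
    (s.cid.get v + 1 + i ∈ g.H.G.slot ∧ s.cid.get v + 1 + i ∉ g.H.G.scn) ∨
    cur = some (s.cid.get v + 1 + i) ∨ s.cid.get v ∈ Nw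
  now : ∀ a, cur = some a → a ∈ g.H.G.slot ∧ a ∈ g.H.G.scn ∧ a ∈ g.H.fr
  nw : Nw.Nodup ∧ ∀ a ∈ Nw, a ∈ g.H.O ∧ a % 4 = 0 ∧ ∀ i < 3, a + 1 + i ∉ g.H.G.V
  cnt : s.nc = (s.live x.n).card + g.vj + 1
  dis : (s.disc x.n).card = g.st + g.ls
  cm : s.cm ≤ x.c
  acc : Acc x.U x.Vm x.al x.Γ g.H.wJ g.vj s.cm g.st g.ls g.be (bud x s g)
  hall : ∀ Ps Ys, g.V.Cls Ps Ys → x.U * Ys.card ≤ x.U * Ps.card +
    x.al * (∑ p ∈ Ps, s.sz.get p + ∑ y ∈ Ys, s.sz.get y) + g.be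
  debt : g.V.dts g.V.P g.V.I ≤ x.U * (2 * s.cm + g.st)

/-- The whole state: core, levels, box. -/
abbrev Fs (β : Type) : Type := S × Arr PL × β

/-- The invariant between two steps; `φ` is the credit. -/
structure Good (E : Env β) (x : Pm) (σ : Fs β) (g : Gs) (cur : Option ℕ) (φ : ℕ) : Prop where
  core : Core x σ.1 g cur []
  lev : ∃ Mt, Mt ≤ bud x σ.1 g ∧ Lev x.b x.D (fv σ.1 g) σ.2.1.get [] Mt
  box : ∃ φb, E.I x.B x.b 1 g.H.G σ.2.2 φb ∧ φ = φb + x.La * σ.1.psi x +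
    x.Cf * pot x.b σ.2.1.get + x.La * x.U * (x.c - σ.1.cm)

/-! ### The blocks -/

/-- The keys of the arcs from `Ps` to inner names outside of `Ys`. -/
structure KeysOK (E : Env β) (f : Pr → S → List ℕ → List ℕ → M (List ℕ)) : Prop where
  impl : Impl fun p : Pr × S × List ℕ × List ℕ => f p.1 p.2.1 p.2.2.1 p.2.2.2
  spec : ∀ (x : Pm) s g cur Nw Ps Ys, x.OK E → Core x s g cur Nw → Ps.Nodup →
    (∀ p ∈ Ps, p ∈ g.V.P) → Tri ⟨x.B, true⟩ (f x.toPr s Ps Ys) fun K t =>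
      g.V.Keys Ps.toFinset Ys.toFinset K ∧ K.length ≤ 3 * (Ps.map s.sz.get).sum ∧
      t ≤ 30 * ((Ps.map s.sz.get).sum + Ys.length + 1)

/-- The piece `D` was removed; `L` are the new lacks. -/
structure Rem (x : Pm) (s : S) (g : Gs) (D : Pc) (s' : S) (g' : Gs) (L : PL) : Prop where
  V : g'.V = g.V.del D.1.toFinset D.2.1.toFinset L
  G : g'.H.G = g.H.G
  own : ∀ v, s'.own.get v =
    if s.own.get v ∈ D.1 ∨ s.own.get v ∈ D.2.1 then 0 else s.own.get v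
  same : s'.cid = s.cid ∧ s'.vx = s.vx ∧ s'.sz = s.sz ∧ s'.nc = s.nc
  vj : g'.vj = g.vj + vs s.sz.get D
  lack : ∀ q ∈ L, q.1 ∈ g.V.I ∧ q.1 ∉ D.2.1 ∧ 0 < q.2
  tot : tot L + x.U * D.2.1.length ≤ x.U * D.1.length + g.V.dts D.1.toFinset D.2.1.toFinset
  psi : s'.psi x + vs s.sz.get D ≤ s.psi x
  lev : ∀ k d lv src Mt, Lev k d (fv s g) lv src Mt → Lev k d (fv s' g') lv (L ++ src) Mt

/-- A closed set is dissolved: `e` nodes and `d` inner vertices stay without a partner. -/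
structure PruneOK (E : Env β) (f : Pr → S → Pc → M (S × PL)) : Prop where
  impl : Impl fun p : Pr × S × Pc => f p.1 p.2.1 p.2.2
  spec : ∀ (x : Pm) s g cur (D : Pc) e d, x.OK E → Core x s g cur [] → Piece g.V D →
    (∃ l, IsM D.2.2 l ∧ l.length + e = D.1.length ∧ l.length + d = D.2.1.length) →
    e = 0 ∨ d = 0 → e * x.Vm ≤ vs s.sz.get D → Vt x.b x.B (f x.toPr s D) fun r t =>
      ∃ g', Core x r.1 g' cur [] ∧ Rem x s g D r.1 g' r.2 ∧ g'.st = g.st + e ∧ r.1.cm = s.cm ∧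
        t ≤ x.Γ ^ 2 * (vs s.sz.get D + 1)

/-- The nodes of `u` and `u'` are matched by the edge `u u'`. -/
structure CommitOK (E : Env β) (f : Pr → S → ℕ → ℕ → M (S × PL)) : Prop where
  impl : Impl fun p : Pr × S × ℕ × ℕ => f p.1 p.2.1 p.2.2.1 p.2.2.2
  spec : ∀ (x : Pm) s g cur u u', x.OK E → Core x s g cur [] → s.own.get u ∈ g.V.P →
    s.own.get u' ∈ g.V.P → s.own.get u ≠ s.own.get u' → x.A u u' → s.cm < x.c →
    Succ g.V x.U x.Γ (s.own.get u) (s.own.get u') →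
    (∀ y, y ∈ g.V.I ∨ y ∈ g.V.P → g.V.dt y ≤ x.b * x.D * s.sz.get y) →
    Vt x.b x.B (f x.toPr s u u') fun r t =>
      ∃ g', Core x r.1 g' cur [] ∧ Rem x s g ([s.own.get u, s.own.get u'], [], []) r.1 g' r.2 ∧
        g'.st = g.st ∧ r.1.cm = s.cm + 1 ∧
        t ≤ x.Γ ^ 2 * (s.sz.get (s.own.get u) + s.sz.get (s.own.get u') + 1)

/-- The blossom `C` with the bridge `u u'` is contracted to its biggest node. -/
structure ContractOK (E : Env β) (f : Pr → S → Pc → ℕ → ℕ → M S) : Prop where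
  impl : Impl fun p : Pr × S × Pc × ℕ × ℕ => f p.1 p.2.1 p.2.2.1 p.2.2.2.1 p.2.2.2.2
  spec : ∀ (x : Pm) s g cur (C : Pc) u u', x.OK E → Core x s g cur [] → Piece g.V C →
    nodes C.2.2 = C.1.toFinset → inns C.2.2 = C.2.1.toFinset →
    Blo C.2.2 (s.own.get u) (s.own.get u') → s.own.get u ≠ s.own.get u' → x.A u u' →
    Vt x.b x.B (f x.toPr s C u u') fun s' t =>
      ∃ g' w, Core x s' g' cur C.2.1 ∧ g'.H.G = g.H.G ∧ s'.cm = s.cm ∧ bud x s' g' = bud x s g ∧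
        (∀ k d lv src Mt, Lev k d (fv s g) lv src Mt → Lev k d (fv s' g') lv src Mt) ∧
        s'.psi x + w ≤ s.psi x ∧ ct C ≤ w + 1 ∧ t ≤ x.Γ ^ 2 * w

/-- The missing slots are made. -/
structure SlotsOK (E : Env β) (f : Pr → S → List ℕ → β → M β) : Prop where
  impl : Impl fun p : Pr × S × List ℕ × β => f p.1 p.2.1 p.2.2.1 p.2.2.2
  spec : ∀ (x : Pm) s g cur Nw bx φ, x.OK E → Core x s g cur Nw → E.I x.B x.b 1 g.H.G bx φ →
    Vt x.b x.B (f x.toPr s Nw bx) fun r t => ∃ H' φ', Core x s { g with H := H' } cur [] ∧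
      E.I x.B x.b 1 H'.G r φ' ∧ H'.G.scn = g.H.G.scn ∧ t + φ' ≤ φ + x.Γ ^ 2 * (Nw.length + 1)

/-- The batch `src` is merged into the levels. -/
structure FlushOK (E : Env β) (f : Pr → S → Arr PL → PL → M (S × Arr PL)) : Prop where
  impl : Impl fun p : Pr × S × Arr PL × PL => f p.1 p.2.1 p.2.2.1 p.2.2.2
  spec : ∀ (x : Pm) s g cur (lv : Arr PL) src Mt, x.OK E → Core x s g cur [] →
    Lev x.b x.D (fv s g) lv.get src Mt → Mt + tot src ≤ bud x s g → (∀ q ∈ src, 0 < q.2) →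
    Vt x.b x.B (f x.toPr s lv src) fun r t => ∃ g', Core x r.1 g' cur [] ∧ g'.H.G = g.H.G ∧
      r.1.cm = s.cm ∧ (∃ Mt', Mt' ≤ bud x r.1 g' ∧ Lev x.b x.D (fv r.1 g') r.2.get [] Mt') ∧
      t + x.La * r.1.psi x + x.Cf * pot x.b r.2.get ≤
        x.La * s.psi x + x.Cf * pot x.b lv.get + x.Γ ^ 5 * (tot src + 1)

/-- An edge `u u'` between two different nodes. -/
structure BridgeOK (E : Env β) (f : Pr → Fs β → ℕ → ℕ → M (Fs β)) : Prop where
  impl : Impl fun p : Pr × Fs β × ℕ × ℕ => f p.1 p.2.1 p.2.2.1 p.2.2.2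
  spec : ∀ (x : Pm) (σ : Fs β) g cur φ u u', x.OK E → Good E x σ g cur φ →
    σ.1.own.get u ∈ g.V.P → σ.1.own.get u' ∈ g.V.P → σ.1.own.get u ≠ σ.1.own.get u' → x.A u u' →
    σ.1.cm < x.c → Vt x.b x.B (f x.toPr σ u u') fun σ' t => ∃ g' φ', Good E x σ' g' cur φ' ∧
      g'.H.G.scn = g.H.G.scn ∧ t + x.Γ + φ' ≤ φ

/-- The other end of the edge of the live slot `a` has no label and is matched. -/
structure PairOK (E : Env β) (f : Pr → Fs β → ℕ → M (Fs β)) : Prop where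
  impl : Impl fun p : Pr × Fs β × ℕ => f p.1 p.2.1 p.2.2
  spec : ∀ (x : Pm) (σ : Fs β) g φ a, x.OK E → Good E x σ g (some a) φ → σ.1.res a ≠ 0 →
    σ.1.own.get (σ.1.far x.toPr a) = 0 → σ.1.mt.get (σ.1.far x.toPr a) ≠ σ.1.far x.toPr a →
    Vt x.b x.B (f x.toPr σ a) fun σ' t => ∃ g' φ', Good E x σ' g' none φ' ∧
      g'.H.G.scn = g.H.G.scn ∧ t + φ' ≤ φ + 3 * x.La * x.Γ

/-- The slot `a` is examined once; it stays (`true`) after a bridge. -/
structure StepOK (E : Env β) (f : Pr → Fs β → ℕ → M (Fs β × Bool)) : Prop where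
  impl : Impl fun p : Pr × Fs β × ℕ => f p.1 p.2.1 p.2.2
  spec : ∀ (x : Pm) (σ : Fs β) g φ a, x.OK E → Good E x σ g (some a) φ → σ.1.cm < x.c →
    Vt x.b x.B (f x.toPr σ a) fun r t => ∃ g' φ', g'.H.G.scn = g.H.G.scn ∧
      if r.2 = true then Good E x r.1 g' (some a) φ' ∧ t + x.Γ + φ' ≤ φ
      else Good E x r.1 g' none φ' ∧ t + φ' ≤ φ + 3 * x.La * x.Γ

/-- The start: every exposed vertex is a root. -/
structure InitOK (E : Env β) (f : Pr → Arr ℕ → M (Fs β)) : Prop where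
  impl : Impl fun p : Pr × Arr ℕ => f p.1 p.2
  spec : ∀ (x : Pm) mt, x.OK E → Mat x.A (pm x.n mt) → x.R = ex x.n mt →
    Vt x.b x.B (f x.toPr mt) fun σ t => ∃ g φ, Good E x σ g none φ ∧ g.H.G.scn = ∅ ∧
      t + φ ≤ 2 * x.La * x.Γ * (x.n + 1) + x.La * x.U * x.c

/-- The end after `c` commits. -/
structure FinalOK (E : Env β) (f : Pr → S → M (Arr ℕ)) : Prop where
  impl : Impl fun p : Pr × S => f p.1 p.2
  spec : ∀ (x : Pm) (σ : Fs β) g cur φ, x.OK E → Good E x σ g cur φ → σ.1.cm = x.c →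
    Vt x.b x.B (f x.toPr σ.1) fun o t => Mat x.A (pm x.n o) ∧ ex x.n o + x.c ≤ x.R ∧
      t ≤ x.Γ ^ 2 * (x.n + 1)

/-- **KEYS.** -/
def KEYS : Prop := ∀ (β : Type) [Rep β] (E : Env β), ∃ f, KeysOK E f
/-- **PRUNE.** -/
def PRUNE : Prop := ∀ (β : Type) [Rep β] (E : Env β), ∃ f, PruneOK E f
/-- **COMMIT.** -/
def COMMIT : Prop := ∀ (β : Type) [Rep β] (E : Env β), ∃ f, CommitOK E f
/-- **CONTRACT.** -/
def CONTRACT : Prop := ∀ (β : Type) [Rep β] (E : Env β), ∃ f, ContractOK E f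
/-- **SLOTS.** -/
def SLOTS : Prop := ∀ (β : Type) [Rep β] (E : Env β), ∃ f, SlotsOK E f
/-- **FLUSH.** -/
def FLUSH : Prop := ∀ (β : Type) [Rep β] (E : Env β), ∃ f, FlushOK E f
/-- **BRIDGE.** -/
def BRIDGE : Prop := ∀ (β : Type) [Rep β] (E : Env β), ∃ f, BridgeOK E f
/-- **PAIR.** -/
def PAIR : Prop := ∀ (β : Type) [Rep β] (E : Env β), ∃ f, PairOK E f
/-- **STEP.** -/
def STEP : Prop := ∀ (β : Type) [Rep β] (E : Env β), ∃ f, StepOK E f
/-- **INIT.** -/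
def INIT : Prop := ∀ (β : Type) [Rep β] (E : Env β), ∃ f, InitOK E f
/-- **FINAL.** -/
def FINAL : Prop := ∀ (β : Type) [Rep β] (E : Env β), ∃ f, FinalOK E f
/-- **STALL.** -/
def STALL : Prop := ∀ (β : Type) [Rep β] (E : Env β) (x : Pm) (σ : Fs β) g φ γ, x.OK E →
  Good E x σ g none φ → γ ≤ x.Γ → g.H.G.Stall γ 1 →
    ∀ m, Mat x.A m → x.R < (exposed x.n m).card + x.K

end Vale.Agent.P305GL
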