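import Vale.Agent.P305GL.Defs

/-!
# One phase of the matching algorithm: first consequences of the invariant
-/

namespace Vale.Agent.P305GL

open Vale.Agent.P305 Vale.Agent.P305E Vale.Agent.P305C Vale.Agent.P305LC Vale.Agent.P305N
  Vale.Agent.P305BL Vale.Agent.P305GH Vale.Agent.P305BG Vale.Agent.P305O Finset
open Vale.Agent.P305FL (PL Lev pot)
open Vale.Agent.P305GM (Acc)

variable {β : Type} [Rep β] {E : Env β} {x : Pm} {s : S} {g : Gs} {cur : Option ℕ} {Nw : List ℕ}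

/-! ### Neighbours -/

theorem deg_le3 (p : Pr) (v : ℕ) : p.deg v ≤ 3 := by
  unfold Pr.deg
  split_ifs <;> omega

theorem nbr_all (p : Pr) (v : ℕ) (h3 : (p.adj.get v).length ≤ 3) (hn : (p.adj.get v).Nodup) :
    (∀ i < p.deg v, p.nbr v i ∈ p.adj.get v ∧ p.idx v (p.nbr v i) = i) ∧
      ∀ u ∈ p.adj.get v, p.idx v u < p.deg v ∧ p.nbr v (p.idx v u) = u := by
  unfold Pr.idx Pr.deg Pr.nbr
  generalize p.adj.get v = l at h3 hn
  rcases l with _ | ⟨a, _ | ⟨b, _ | ⟨c, _ | ⟨d, l⟩⟩⟩⟩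
  · simp
  · simp
  · simp only [List.nodup_cons, List.mem_singleton] at hn
    refine ⟨fun i hi => ?_, fun u hu => ?_⟩
    · have : i = 0 ∨ i = 1 := by simp at hi; omega
      rcases this with rfl | rfl <;> simp [hn.1]
    · simp only [List.mem_cons, List.not_mem_nil, or_false] at hu
      rcases hu with rfl | rfl <;> simp [hn.1]
  · simp only [List.nodup_cons, List.mem_cons, List.not_mem_nil, or_false, not_or] at hn
    refine ⟨fun i hi => ?_, fun u hu => ?_⟩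
    · have : i = 0 ∨ i = 1 ∨ i = 2 := by simp at hi; omega
      rcases this with rfl | rfl | rfl <;> simp [hn.1.1, hn.1.2, hn.2.1]
    · simp only [List.mem_cons, List.not_mem_nil, or_false] at hu
      rcases hu with rfl | rfl | rfl <;> simp [hn.1.1, hn.1.2, hn.2.1]
  · simp only [List.length_cons] at h3
    omega

theorem Pm.OK.nbr_adj (o : x.OK E) {v i : ℕ} (h : i < x.deg v) : x.A v (x.nbr v i) :=
  (o.adj.mem _ _).1 ((nbr_all x.toPr v (o.adj.deg v) (o.adj.nodup v)).1 i h).1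

theorem Pm.OK.idx_nbr (o : x.OK E) {v i : ℕ} (h : i < x.deg v) : x.idx v (x.nbr v i) = i :=
  ((nbr_all x.toPr v (o.adj.deg v) (o.adj.nodup v)).1 i h).2

theorem Pm.OK.nbr_inj (o : x.OK E) {v i j : ℕ} (h : i < x.deg v) (h' : j < x.deg v)
    (e : x.nbr v i = x.nbr v j) : i = j := by rw [← o.idx_nbr h, e, o.idx_nbr h']

theorem Pm.OK.idx_lt (o : x.OK E) {v u : ℕ} (h : x.A v u) : x.idx v u < x.deg v :=
  ((nbr_all x.toPr v (o.adj.deg v) (o.adj.nodup v)).2 u ((o.adj.mem _ _).2 h)).1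

theorem Pm.OK.nbr_idx (o : x.OK E) {v u : ℕ} (h : x.A v u) : x.nbr v (x.idx v u) = u :=
  ((nbr_all x.toPr v (o.adj.deg v) (o.adj.nodup v)).2 u ((o.adj.mem _ _).2 h)).2

theorem idx_lt3 (p : Pr) (v u : ℕ) : p.idx v u < 3 := by
  unfold Pr.idx
  split_ifs <;> omega

/-! ### Numbers -/

theorem Pm.OK.n_le (o : x.OK E) : x.n ≤ 2 ^ x.b := by have := o.sz; omega

theorem Pm.OK.pow_le (o : x.OK E) : 16 * 2 ^ x.b ≤ x.B := by
  refine le_trans ?_ o.wd
  rw [pow_add, mul_comm]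
  exact Nat.mul_le_mul_right _ (Nat.pow_le_pow_left (by norm_num) _)

theorem Pm.OK.U_pos (o : x.OK E) : 0 < x.U := by
  obtain ⟨u, h⟩ := o.pow
  rw [h]; positivity

theorem Pm.OK.bD (o : x.OK E) : 2 * (x.b * x.D) + x.Γ ≤ x.al := by
  have h1 := o.big
  have h2 := o.bG
  unfold Pm.D Pm.al
  have h3 : x.Γ ≤ x.Γ ^ 4 := Nat.le_self_pow (by norm_num) _
  have h4 : x.b * x.Γ ^ 3 ≤ x.Γ ^ 4 := by
    rw [pow_succ' x.Γ 3]
    exact Nat.mul_le_mul_right _ (by omega)
  have h5 : 3 * x.Γ ^ 4 ≤ x.Γ ^ 5 := by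
    rw [pow_succ' x.Γ 4]
    exact Nat.mul_le_mul_right _ (by omega)
  omega

/-- A constant factor is absorbed by a higher power. -/
theorem Pm.OK.mul_pow_le (o : x.OK E) {a i j : ℕ} (ha : a ≤ 1000) (h : i < j) :
    a * x.Γ ^ i ≤ x.Γ ^ j := by
  have h1 := o.big
  refine le_trans ?_ (Nat.pow_le_pow_right (by omega) h)
  rw [pow_succ']
  exact Nat.mul_le_mul_right _ (by omega)

/-! ### Names -/

theorem res_ne {z : ℕ} (h : s.res z ≠ 0) :
    s.cid.get (s.vn z) / 4 = z / 4 ∧ s.own.get (s.vn z) = s.res z := by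
  unfold S.res at h ⊢
  split_ifs at h ⊢ with e
  · exact ⟨e, rfl⟩
  · exact absurd rfl h

theorem vn_congr (s : S) {z z' : ℕ} (h : z / 4 = z' / 4) : s.vn z = s.vn z' := by
  unfold S.vn; rw [h]

theorem res_congr (s : S) {z z' : ℕ} (h : z / 4 = z' / 4) : s.res z = s.res z' := by
  unfold S.res; rw [vn_congr s h, h]

theorem mem_live {n v : ℕ} : v ∈ s.live n ↔ v < n ∧ s.own.get v ≠ 0 := by simp [S.live]

theorem mem_un {n v : ℕ} : v ∈ s.un n ↔ v < n ∧ s.own.get v = 0 ∧ s.mt.get v ≠ v := by simp [S.un]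

theorem mem_disc {n v : ℕ} : v ∈ s.disc n ↔ v < n ∧ s.own.get v = 0 ∧ s.mt.get v = v := by
  simp [S.disc]

namespace Core

theorem ok (h : Core x s g cur Nw) : g.V.OK x.b := h.net.ok

theorem ne0 (h : Core x s g cur Nw) {y : ℕ} (hy : y ∈ g.V.I ∨ y ∈ g.V.P) : y ≠ 0 := by
  rintro rfl
  exact hy.elim h.ok.zI h.ok.zP

theorem name (h : Core x s g cur Nw) {y : ℕ} (hy : y ∈ g.V.I ∨ y ∈ g.V.P) :
    y % 4 = 0 ∧ y < 4 * s.nc ∧ s.vn y < x.n := by
  have a := h.self y hy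
  have b := h.own (s.vn y) (by rw [a.1]; exact h.ne0 hy)
  rw [a.2] at b
  exact ⟨b.2.2.1, b.2.2.2.1, b.1⟩

theorem res_self (h : Core x s g cur Nw) {y : ℕ} (hy : y ∈ g.V.I ∨ y ∈ g.V.P) : s.res y = y := by
  unfold S.res
  rw [(h.self y hy).2, if_pos rfl, (h.self y hy).1]

theorem res_live (h : Core x s g cur Nw) {z : ℕ} (hz : s.res z ≠ 0) :
    s.res z ∈ g.V.I ∨ s.res z ∈ g.V.P := by
  have a := (res_ne hz).2
  exact a ▸ (h.own _ (a ▸ hz)).2.1

/-- The copy of a labelled vertex and its slots. -/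
theorem res_cid (h : Core x s g cur Nw) {v i : ℕ} (hv : s.own.get v ≠ 0) (hi : i < 4) :
    s.vn (s.cid.get v + i) = v ∧ s.res (s.cid.get v + i) = s.own.get v := by
  obtain ⟨-, -, a, -, b⟩ := h.own v hv
  have e : (s.cid.get v + i) / 4 = s.cid.get v / 4 := by omega
  refine ⟨(vn_congr s e).trans b, (res_congr s e).trans ?_⟩
  unfold S.res
  rw [b, if_pos rfl]

theorem vn_inn (h : Core x s g cur Nw) {v : ℕ} (hv : s.own.get v ∈ g.V.I) :
    s.vn (s.own.get v) = v := h.inn v hv ▸ (h.own v (h.ne0 (.inl hv))).2.2.2.2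

theorem ndP (h : Core x s g cur Nw) {a : ℕ} (ha : a ∈ g.H.O) : s.res a ∈ g.V.P :=
  h.ndO a ha ▸ h.lk.P ▸ Hs.nd_mem ha

theorem memO (h : Core x s g cur Nw) {a : ℕ} (ha : a ∈ g.H.G.V) (hp : s.res a ∈ g.V.P) :
    a ∈ g.H.O := by
  rcases (h.gh.memV a).1 ha with k | k | k
  · exact absurd (h.jk a k) (h.ne0 (.inr hp))
  · rw [h.lk.I] at k
    exact absurd (h.res_self (.inl k) ▸ hp) (h.ok.dis a k)
  · exact k

/-- An inner copy has no slots. -/
theorem fresh (h : Core x s g cur Nw) {y i : ℕ} (hy : y ∈ g.V.I) (hi : i < 3) :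
    y + 1 + i ∉ g.H.G.V := fun ha => by
  have a := (h.name (.inl hy)).1
  have e : s.res (y + 1 + i) = y := (res_congr s (by omega)).trans (h.res_self (.inl hy))
  rcases (h.gh.memV _).1 ha with k | k | k
  · exact h.ne0 (.inl hy) (e ▸ h.jk _ k)
  · rw [h.lk.I] at k
    have := (h.name (.inl k)).1
    omega
  · exact h.ok.dis y hy (e ▸ h.ndP k)

theorem new (h : Core x s g cur Nw) {a : ℕ} (ha : 4 * s.nc ≤ a) :
    a ∉ g.H.G.V ∧ a ∉ g.V.I ∧ a ∉ g.V.P :=
  ⟨fun k => by have := (h.rng a k).1; omega, fun k => by have := (h.name (.inl k)).2.1; omega,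
    fun k => by have := (h.name (.inr k)).2.1; omega⟩

/-- A live slot. -/
theorem slot (h : Core x s g cur Nw) (o : x.OK E) {a : ℕ} (ha : a ∈ g.H.G.slot)
    (hr : s.res a ≠ 0) : a ∈ g.H.O ∧ s.res a ∈ g.V.P ∧ s.own.get (s.vn a) = s.res a ∧
      s.cid.get (s.vn a) + 1 + (a % 4 - 1) = a ∧ a % 4 - 1 < x.deg (s.vn a) ∧
      x.A (s.vn a) (s.far x.toPr a) := by
  have a1 := (h.gh.sl a).1 ha
  have a2 := (h.rng a a1.1).2.1 a1.2
  have a3 := res_ne hr
  have a4 := (h.own _ (a3.2 ▸ hr)).2.2.1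
  have a5 := h.sl a ha
  have hO : a ∈ g.H.O := by
    rcases (h.gh.memV a).1 a1.1 with k | k | k
    · exact absurd (h.jk a k) hr
    · have := h.gh.wI a k
      omega
    · exact k
  exact ⟨hO, h.ndP hO, a3.2, by omega, by omega, o.nbr_adj (by omega)⟩

/-! ### Sizes -/

theorem vj_junk (h : Core x s g cur Nw) : g.vj ≤ (g.H.J.filter fun v => g.H.w v ≠ 0).card := by
  have a : Ico 1 s.nc ⊆ (g.H.J.filter fun v => g.H.w v ≠ 0).image (· / 4) ∪
      (s.live x.n).image fun v => s.cid.get v / 4 := fun j hj => by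
    have b := h.cop j (mem_Ico.1 hj).1 (mem_Ico.1 hj).2
    have e : 4 * j / 4 = j := by omega
    by_cases k : s.res (4 * j) = 0
    · refine mem_union_left _ (mem_image.2 ⟨4 * j, mem_filter.2 ⟨?_, fun z => ?_⟩, e⟩)
      · rcases (h.gh.memV _).1 b with k' | k' | k'
        · exact k'
        · rw [h.lk.I] at k'
          exact absurd (h.res_self (.inl k') ▸ k) (h.ne0 (.inl k'))
        · exact absurd k (h.ne0 (.inr (h.ndP k')))
      · exact (h.rng _ b).2.1 z (by omega)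
    · have c := res_ne k
      exact mem_union_right _ (mem_image.2 ⟨s.vn (4 * j),
        mem_live.2 ⟨(h.own _ (c.2 ▸ k)).1, c.2 ▸ k⟩, c.1.trans e⟩)
  have b := (card_le_card a).trans ((card_union_le _ _).trans (add_le_add card_image_le card_image_le))
  have c := h.cnt
  rw [Nat.card_Ico] at b
  omega

theorem junk_le (h : Core x s g cur Nw) : (g.vj : ℤ) ≤ (2 * x.Γ * x.Q + 1 : ℕ) * g.H.wJ :=
  le_trans (by exact_mod_cast h.vj_junk) (h.gh.copies_junk.trans_eq (by push_cast; ring))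

theorem vj_le (h : Core x s g cur Nw) (o : x.OK E) : g.vj ≤ x.Vx :=
  (h.acc.junk h.junk_le o.V3 (by omega)).1.trans ((Nat.mul_le_mul_left _ h.cm).trans o.Vx)

theorem st_le (h : Core x s g cur Nw) (o : x.OK E) : 16 * g.st ≤ s.cm :=
  (h.acc.junk h.junk_le o.V3 (by omega)).2

theorem ls_le (h : Core x s g cur Nw) (o : x.OK E) : 8 * g.ls ≤ s.cm :=
  have := o.bD
  have := o.big
  (h.acc.lost h.junk_le o.V3 (by omega) o.V1 (by omega) (by omega)).1

theorem bud_le (h : Core x s g cur Nw) (o : x.OK E) : 2 * bud x s g < 2 ^ x.b := by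
  have := o.bD
  have := o.big
  have a := (h.acc.lost h.junk_le o.V3 (by omega) o.V1 (by omega) (by omega)).2.2
  have b := Nat.mul_le_mul_left (3 * x.U) h.cm
  have c := o.Uc
  have d := Nat.mul_pos o.U_pos o.c0
  rw [mul_assoc] at a b c
  rw [mul_assoc] at b
  omega

theorem live_le (s : S) (n : ℕ) : (s.live n).card ≤ n := (card_filter_le _ _).trans_eq (card_range _)

theorem nc_le (h : Core x s g cur Nw) (o : x.OK E) : s.nc ≤ x.n + x.Vx + 1 := by
  have := h.cnt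
  have := h.vj_le o
  have := live_le s x.n
  omega

theorem nc_pos (h : Core x s g cur Nw) : 0 < s.nc := by have := h.cnt; omega

theorem card_V (h : Core x s g cur Nw) (o : x.OK E) : g.H.G.V.card ≤ 4 * (x.n + x.Vx + 1) := by
  have a : g.H.G.V ⊆ range (4 * s.nc) := fun a ha => mem_range.2 (h.rng a ha).1
  have := (card_le_card a).trans_eq (card_range _)
  have := h.nc_le o
  omega

theorem card_scn (h : Core x s g cur Nw) (o : x.OK E) :
    g.H.G.scn.card ≤ 4 * (x.n + x.Vx + 1) :=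
  (card_le_card fun _ ha => h.gh.slotV (h.gh.scn ha)).trans (h.card_V o)

theorem size_lt (h : Core x s g cur Nw) (o : x.OK E) : g.H.G.size + 48 ≤ 2 ^ x.b := by
  have := h.gh.size_le.1
  have := h.card_V o
  have := o.sz
  omega

theorem dts_le (h : Core x s g cur Nw) (o : x.OK E) {Ps Ys : Finset ℕ} (hP : Ps ⊆ g.V.P)
    (hI : Ys ⊆ g.V.I) : g.V.dts Ps Ys ≤ 2 ^ x.b := by
  have a : g.V.dts Ps Ys ≤ g.V.dts g.V.P g.V.I :=
    add_le_add (sum_le_sum_of_subset hP) (sum_le_sum_of_subset hI)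
  have b := h.debt
  have c := h.bud_le o
  unfold bud at c
  rw [mul_add, ← mul_assoc, mul_comm x.U 2] at b
  omega

theorem dt_le (h : Core x s g cur Nw) (o : x.OK E) : ∀ p ∈ g.V.P, g.V.dt p ≤ 2 ^ x.b := fun p hp => by
  simpa [P305N.Vw.dts] using h.dts_le o (singleton_subset_iff.2 hp) (empty_subset _)

/-! ### Volumes -/

theorem sz_card (h : Core x s g cur Nw) {y : ℕ} (hy : y ∈ g.V.I ∨ y ∈ g.V.P) :
    s.sz.get y = ((range x.n).filter fun v => s.own.get v = y).card := by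
  obtain ⟨a, b, c⟩ := h.mem y hy
  rw [c, ← List.toFinset_card_of_nodup a]
  congr 1
  ext v
  rw [List.mem_toFinset, b, mem_filter, mem_range]
  exact ⟨fun e => ⟨(h.own v (e ▸ h.ne0 hy)).1, e⟩, fun e => e.2⟩

theorem sz_pos (h : Core x s g cur Nw) {y : ℕ} (hy : y ∈ g.V.I ∨ y ∈ g.V.P) : 1 ≤ s.sz.get y := by
  rw [h.sz_card hy]
  exact card_pos.2 ⟨s.vn y, mem_filter.2 ⟨mem_range.2 (h.name hy).2.2, (h.self y hy).1⟩⟩

theorem sz_inn (h : Core x s g cur Nw) {y : ℕ} (hy : y ∈ g.V.I) : s.sz.get y = 1 := by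
  refine le_antisymm ?_ (h.sz_pos (.inl hy))
  rw [h.sz_card (.inl hy)]
  refine card_le_one.2 fun u hu v hv => ?_
  have a := (mem_filter.1 hu).2
  have b := (mem_filter.1 hv).2
  have c := h.vn_inn (v := u) (a ▸ hy)
  have d := h.vn_inn (v := v) (b ▸ hy)
  rw [← c, ← d, a, b]

theorem sum_sz (h : Core x s g cur Nw) {T : Finset ℕ} (hT : ∀ y ∈ T, y ∈ g.V.I ∨ y ∈ g.V.P) :
    ∑ y ∈ T, s.sz.get y = ((range x.n).filter fun v => s.own.get v ∈ T).card := by
  rw [card_eq_sum_card_fiberwise (f := s.own.get) (t := T)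
    (s := (range x.n).filter fun v => s.own.get v ∈ T) fun v hv => (mem_filter.1 (mem_coe.1 hv)).2]
  refine sum_congr rfl fun y hy => ?_
  rw [h.sz_card (hT y hy), filter_filter]
  exact congrArg card (filter_congr fun v _ => ⟨fun e => ⟨e ▸ hy, e⟩, fun e => e.2⟩)

theorem sum_sz2 (h : Core x s g cur Nw) {Ps Ys : Finset ℕ} (hP : Ps ⊆ g.V.P) (hI : Ys ⊆ g.V.I) :
    ∑ y ∈ Ps, s.sz.get y + ∑ y ∈ Ys, s.sz.get y =
      ((range x.n).filter fun v => s.own.get v ∈ Ps ∨ s.own.get v ∈ Ys).card := by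
  rw [← sum_union (disjoint_left.2 fun y a b => h.ok.dis y (hI b) (hP a)), h.sum_sz fun y hy =>
    (mem_union.1 hy).elim (fun k => .inr (hP k)) fun k => .inl (hI k)]
  simp only [mem_union]

theorem sum_sz_le (h : Core x s g cur Nw) {Ps Ys : Finset ℕ} (hP : Ps ⊆ g.V.P) (hI : Ys ⊆ g.V.I) :
    ∑ y ∈ Ps, s.sz.get y + ∑ y ∈ Ys, s.sz.get y ≤ x.n :=
  (h.sum_sz2 hP hI).trans_le ((card_filter_le _ _).trans_eq (card_range _))

theorem sz_le (h : Core x s g cur Nw) {y : ℕ} (hy : y ∈ g.V.I ∨ y ∈ g.V.P) : s.sz.get y ≤ x.n :=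
  (h.sz_card hy).trans_le ((card_filter_le _ _).trans_eq (card_range _))

theorem size_sz (h : Core x s g cur Nw) (o : x.OK E) {y : ℕ} (hy : y ∈ g.V.I ∨ y ∈ g.V.P) :
    1 ≤ Nat.size (s.sz.get y) ∧ Nat.size (s.sz.get y) ≤ x.b + 1 :=
  ⟨Nat.size_pos.2 (h.sz_pos hy), Nat.size_le.2 (by
    have := h.sz_le hy
    have := o.n_le
    have := Nat.two_pow_pos x.b
    rw [pow_succ]; omega)⟩

/-- The ends of an arc. -/
theorem arc_adj (h : Core x s g cur Nw) (o : x.OK E) {k : ℕ} (hk : g.V.tl k ≠ 0) :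
    x.A (s.vn (k / 3)) (s.nb x.toPr k) ∧ x.idx (s.vn (k / 3)) (s.nb x.toPr k) = k % 3 ∧
      s.own.get (s.vn (k / 3)) = k / 3 :=
  ⟨o.nbr_adj (h.arc k hk).1, o.idx_nbr (h.arc k hk).1, (h.self _ (.inl (h.ok.arc k hk).2)).1⟩

theorem deg_le (h : Core x s g cur Nw) (o : x.OK E) {p : ℕ} (hp : p ∈ g.V.P) :
    g.V.deg x.b p ≤ 3 * s.sz.get p := by
  rw [h.sz_card (.inr hp), mul_comm, ← card_range 3, ← card_product]
  have h0 := h.ne0 (.inr hp)
  refine card_le_card_of_injOn (fun k => (s.nb x.toPr k, x.idx (s.nb x.toPr k) (s.vn (k / 3))))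
    (fun k hk => ?_) fun k hk k' hk' e => ?_
  · have a : g.V.tl k = p := (mem_filter.1 (mem_coe.1 hk)).2
    have b := (h.arc k (a ▸ h0)).2
    refine mem_coe.2 (mem_product.2 ⟨mem_filter.2 ⟨mem_range.2 ?_, b.trans a⟩,
      mem_range.2 (idx_lt3 _ _ _)⟩)
    exact (h.own _ (by rw [b, a]; exact h0)).1
  · have a := h.arc_adj o (k := k) ((mem_filter.1 (mem_coe.1 hk)).2 ▸ h0)
    have a' := h.arc_adj o (k := k') ((mem_filter.1 (mem_coe.1 hk')).2 ▸ h0)
    obtain ⟨e1, e2⟩ := Prod.mk.inj e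
    have e3 : s.vn (k / 3) = s.vn (k' / 3) := by
      rw [← o.nbr_idx (o.adj.gr.symm a.1), ← o.nbr_idx (o.adj.gr.symm a'.1), e2, e1]
    have e4 : k / 3 = k' / 3 := by rw [← a.2.2, ← a'.2.2, e3]
    have e5 : k % 3 = k' % 3 := by rw [← a.2.1, ← a'.2.1, e3, e1]
    omega

/-! ### Links -/

theorem elk (h : Core x s g cur Nw) (o : x.OK E) :
    P305EN.Emb x.n x.A s.bs g.V s.top.get s.vn (s.nb x.toPr) where
  node p hp := (h.node p hp).1
  disj p hp q hq ne := disjoint_left.2 fun v a b =>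
    ne ((((h.node p hp).2 v).1 a).symm.trans (((h.node q hq).2 v).1 b))
  inj y hy z hz e := by rw [← (h.self y (.inl hy)).1, e, (h.self z (.inl hz)).1]
  inn y hy := ⟨(h.name (.inl hy)).2.2, fun p hp k => h.ok.dis y hy (by
    rw [← (h.self y (.inl hy)).1, ((h.node p hp).2 _).1 k]; exact hp)⟩
  arc k hk := ⟨((h.node _ (h.ok.arc k hk).1).2 _).2 (h.arc k hk).2,
    o.adj.gr.symm (h.arc_adj o hk).1⟩

theorem mem_vts (h : Core x s g cur Nw) {Ps Ys : Finset ℕ} (hP : Ps ⊆ g.V.P) (hI : Ys ⊆ g.V.I)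
    (v : ℕ) : v ∈ P305EN.vts x.n s.bs s.top.get s.vn Ps Ys ↔
      s.own.get v ∈ Ps ∨ s.own.get v ∈ Ys := by
  simp only [P305EN.vts, mem_union, mem_biUnion, mem_image]
  refine or_congr ⟨?_, fun k => ⟨_, k, ((h.node _ (hP k)).2 v).2 rfl⟩⟩
    ⟨?_, fun k => ⟨_, k, h.vn_inn (hI k)⟩⟩
  · rintro ⟨p, hp, k⟩
    exact ((h.node p (hP hp)).2 v).1 k ▸ hp
  · rintro ⟨y, hy, rfl⟩
    exact (h.self y (.inl (hI hy))).1.symm ▸ hy

theorem card_vts (h : Core x s g cur Nw) {Ps Ys : Finset ℕ} (hP : Ps ⊆ g.V.P) (hI : Ys ⊆ g.V.I) :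
    (P305EN.vts x.n s.bs s.top.get s.vn Ps Ys).card =
      ∑ y ∈ Ps, s.sz.get y + ∑ y ∈ Ys, s.sz.get y := by
  rw [h.sum_sz2 hP hI]
  congr 1
  ext v
  rw [h.mem_vts hP hI, mem_filter, mem_range]
  exact ⟨fun k => ⟨(h.own v (h.ne0 (k.elim (fun a => .inr (hP a)) fun a => .inl (hI a)))).1, k⟩,
    fun k => k.2⟩

theorem split (h : Core x s g cur Nw) :
    P305EN.Split x.n x.A s.mt.get (s.live x.n) (s.un x.n) (s.disc x.n) where
  cov v hv := by
    rw [mem_live, mem_un, mem_disc]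
    tauto
  pmo := h.pmo
  dR _ hv k := (mem_live.1 k).2 (mem_un.1 hv).2.1
  fix _ hv _ _ := (mem_disc.1 hv).2.2

theorem fv_ok (h : Core x s g cur Nw) : (fv s g).OK :=
  ⟨fun k => h.ne0 (mem_union.1 k) rfl, fun _ k => mem_union.2 (h.res_live k),
    fun _ k => ⟨h.res_self (mem_union.1 k), (h.name (mem_union.1 k)).2.1⟩⟩

theorem dt_stab {lv : ℕ → PL} {Mt : ℕ} (h : Lev x.b x.D (fv s g) lv [] Mt) :
    ∀ y, y ∈ g.V.I ∨ y ∈ g.V.P → g.V.dt y ≤ x.b * x.D * s.sz.get y := fun _ hy =>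
  h.dt_le (mem_union.2 hy)

theorem stab (h : Core x s g cur Nw) (o : x.OK E) {lv : ℕ → PL} {Mt : ℕ}
    (l : Lev x.b x.D (fv s g) lv [] Mt) : Stab g.V s.sz.get x.al x.B where
  dt y hy := (l.dt_le (mem_union.2 hy)).trans
    (Nat.mul_le_mul_right (s.sz.get y) (by have := o.bD; omega))
  pos _ hy := h.sz_pos hy
  sum := by
    have := h.sum_sz_le Subset.rfl Subset.rfl
    have := o.n_le
    have := o.pow_le
    omega

/-! ### Small steps -/

theorem scan (h : Core x s g none Nw) {a : ℕ} (ha : a ∈ g.H.G.slot) (hn : a ∉ g.H.G.scn)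
    (hf : (g.H.G.scan a).Fuel x.Γ 1) : Core x s { g with H := g.H.scan a } (some a) Nw :=
  { h with
    gh := h.gh.scan ha hf
    lk := h.lk.scan a
    pend := fun v hv i hi => by
      rcases h.pend v hv i hi with k | k | k | k
      · exact .inl k
      · by_cases e : a = s.cid.get v + 1 + i
        · exact .inr (.inr (.inl (congrArg _ e)))
        · exact .inr (.inl ⟨k.1, fun z => (mem_insert.1 z).elim (fun z => e z.symm) k.2⟩)
      · cases k
      · exact .inr (.inr (.inr k))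
    now := fun _ e => by
      obtain rfl := Option.some.inj e
      exact ⟨ha, mem_insert_self _ _, h.gh.fru a ha hn⟩ }

theorem clear {a : ℕ} (h : Core x s g (some a) Nw)
    (hd : s.res a ≠ 0 → Done x s g (s.vn a) (a % 4 - 1)) : Core x s g none Nw :=
  { h with
    pend := fun v hv i hi => by
      rcases h.pend v hv i hi with k | k | k | k
      · exact .inl k
      · exact .inr (.inl k)
      · obtain rfl := Option.some.inj k
        have h0 := h.ne0 (.inr hv)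
        have := deg_le3 x.toPr v
        have b := h.res_cid (i := 1 + i) h0 (by omega)
        have c := (h.own v h0).2.2.1
        rw [← add_assoc] at b
        rw [b.1, b.2, show (s.cid.get v + 1 + i) % 4 - 1 = i by omega] at hd
        exact .inl (hd h0)
      · exact .inr (.inr (.inr k))
    now := fun _ e => by cases e }

theorem mov (h : Core x s g cur Nw) {src rest don : PL} {ns : NT}
    (hn : P305N.Inv x.b x.U (g.V.mov src rest don) ns) (hs : g.V.Am src)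
    (hd : ∀ y, ms src y ≤ g.V.dt y) (ht : tot rest + tot don ≤ tot src) :
    Core x { s with ns := ns } { g with V := g.V.mov src rest don } cur Nw :=
  { h with
    net := hn
    lk := h.lk.mov src rest don
    hall := fun Ps Ys c => h.hall Ps Ys ⟨c.sP, c.sI, c.cl⟩
    debt := by
      refine le_trans ?_ h.debt
      have dj : Disjoint g.V.P g.V.I := disjoint_left.2 fun y a b => h.ok.dis y b a
      show ∑ y ∈ g.V.P, (g.V.dt y + ms rest y + ms don y - ms src y) +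
        ∑ y ∈ g.V.I, (g.V.dt y + ms rest y + ms don y - ms src y) ≤
          ∑ y ∈ g.V.P, g.V.dt y + ∑ y ∈ g.V.I, g.V.dt y
      rw [← sum_union dj, ← sum_union dj]
      have a : ∑ y ∈ g.V.P ∪ g.V.I, (g.V.dt y + ms rest y + ms don y - ms src y + ms src y) =
          ∑ y ∈ g.V.P ∪ g.V.I, (g.V.dt y + ms rest y + ms don y) :=
        sum_congr rfl fun y _ => by have := hd y; omega
      have b := sum_ms_add src (g.V.P ∪ g.V.I)
      rw [List.sum_eq_zero fun z hz => by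
        obtain ⟨q, hq, rfl⟩ := List.mem_map.1 hz
        exact if_pos (mem_union.2 (hs q hq).1.symm)] at b
      have c := sum_ms_le rest (g.V.P ∪ g.V.I)
      have d := sum_ms_le don (g.V.P ∪ g.V.I)
      simp only [sum_add_distrib] at a
      omega }

end Core

end Vale.Agent.P305GL
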