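import Vale.Agent.P305R.Route
import Vale.Agent.P305BD.Fin
import Vale.Agent.P305M.Top
import Vale.Agent.P305I.Par
import Vale.Agent.P305LC.Name
import Vale.Agent.P305LC.Loc
import Vale.Agent.P305N.Main

/-!
# The tools exist
-/

namespace Vale.Agent.P305GL

theorem box_ex : P305LC.BOX False :=
  P305LC.named (P305I.box_of_eng (P305M.eng_of_build (P305BD.build P305R.route)))

theorem net_ex : P305N.NET := P305N.net (P305LC.loc box_ex)

end Vale.Agent.P305GL
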