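import Vale.Agent.P305GL.Basic

/-!
# The credit of the labelled vertices
-/

namespace Vale.Agent.P305GL

open Vale.Agent.P305E Finset

variable {β : Type} [Rep β] {E : Env β} {x : Pm} {s s' : S} {g : Gs} {cur : Option ℕ}
  {Nw : List ℕ}

/-- New labels on the vertices `N`. -/
theorem psi_new (N : Finset ℕ) (h1 : ∀ v, v ∉ N → s'.own.get v = s.own.get v)
    (h2 : ∀ v, v ∉ N → s.own.get v ≠ 0 → s'.sz.get (s.own.get v) = s.sz.get (s.own.get v)) :
    s'.psi x ≤ s.psi x + N.card * (x.b + 2) := by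
  unfold S.psi
  have a : s'.live x.n ⊆ (s.live x.n \ N) ∪ N := fun v hv => by
    by_cases k : v ∈ N
    · exact mem_union_right _ k
    · exact mem_union_left _ (mem_sdiff.2 ⟨mem_live.2 ⟨(mem_live.1 hv).1,
        h1 v k ▸ (mem_live.1 hv).2⟩, k⟩)
  refine (sum_le_sum_of_subset a).trans ?_
  rw [sum_union sdiff_disjoint]
  refine add_le_add (le_trans (le_of_eq (sum_congr rfl fun v hv => ?_))
    (sum_le_sum_of_subset (sdiff_subset (t := N)))) (sum_le_card_nsmul _ _ _ fun v _ => by omega)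
  rw [h1 v (mem_sdiff.1 hv).2, h2 v (mem_sdiff.1 hv).2 (mem_live.1 (mem_sdiff.1 hv).1).2]

/-- Small to large. -/
theorem psi_con (h : Core x s g cur Nw) (o : x.OK E) {Ps Ys : Finset ℕ} {r : ℕ} (hP : Ps ⊆ g.V.P)
    (hI : Ys ⊆ g.V.I) (hr : r ∈ Ps) (hm : ∀ p ∈ Ps, s.sz.get p ≤ s.sz.get r)
    (h1 : ∀ v, s'.own.get v = if s.own.get v ∈ Ps ∨ s.own.get v ∈ Ys then r else s.own.get v)
    (h2 : s'.sz.get r = ∑ y ∈ Ps, s.sz.get y + ∑ y ∈ Ys, s.sz.get y)
    (h3 : ∀ y, y ≠ r → s'.sz.get y = s.sz.get y) :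
    s'.psi x + (∑ y ∈ Ps.erase r, s.sz.get y + ∑ y ∈ Ys, s.sz.get y) ≤ s.psi x := by
  have r0 := h.ne0 (.inr (hP hr))
  have hl : s'.live x.n = s.live x.n := by
    ext v
    rw [mem_live, mem_live, h1]
    split_ifs with k
    · exact and_congr_right fun _ => iff_of_true r0
        (h.ne0 (k.elim (fun a => .inr (hP a)) fun a => .inl (hI a)))
    · rfl
  have e1 := add_sum_erase Ps s.sz.get hr
  have e2 := h.sum_sz_le hP hI
  have e3 : Nat.size (s'.sz.get r) ≤ x.b + 1 := Nat.size_le.2 (by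
    have := o.n_le
    have := Nat.two_pow_pos x.b
    rw [pow_succ]; omega)
  have e4 : ∀ y, y ∈ Ps.erase r ∨ y ∈ Ys → Nat.size (s.sz.get y) + 1 ≤ Nat.size (s'.sz.get r) := by
    intro y hy
    have a : 2 * s.sz.get y ≤ s'.sz.get r := by
      rcases hy with hy | hy
      · have := single_le_sum (f := s.sz.get) (fun _ _ => Nat.zero_le _) hy
        have := hm y (mem_of_mem_erase hy)
        omega
      · have := single_le_sum (f := s.sz.get) (fun _ _ => Nat.zero_le _) hy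
        have := h.sz_inn (hI hy)
        have := h.sz_pos (.inr (hP hr))
        omega
    have b := h.sz_pos (y := y) (hy.elim (fun k => .inr (hP (mem_of_mem_erase k))) fun k => .inl (hI k))
    refine le_trans (le_of_eq ?_) (Nat.size_le_size a)
    rw [mul_comm, ← pow_one 2, ← Nat.shiftLeft_eq, Nat.size_shiftLeft (by omega)]
  rw [h.sum_sz2 ((erase_subset _ _).trans hP) hI, card_filter]
  unfold S.psi
  rw [hl, S.live, sum_filter, sum_filter, ← sum_add_distrib]
  refine sum_le_sum fun v _ => ?_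
  rw [h1]
  by_cases k0 : s.own.get v = 0
  · have a : ¬ (s.own.get v ∈ Ps.erase r ∨ s.own.get v ∈ Ys) := fun k => h.ne0
      (k.elim (fun a => .inr (hP (mem_of_mem_erase a))) fun a => .inl (hI a)) k0
    rw [if_neg a, if_neg (not_not.2 k0)]
    omega
  rw [if_pos k0, if_pos k0]
  by_cases k1 : s.own.get v ∈ Ps.erase r ∨ s.own.get v ∈ Ys
  · have := e4 _ k1
    rw [if_pos k1, if_pos (k1.imp_left mem_of_mem_erase)]
    omega
  rw [if_neg k1]
  by_cases k2 : s.own.get v = r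
  · have := Nat.size_le_size (show s.sz.get r ≤ s'.sz.get r by omega)
    rw [if_pos (.inl (k2 ▸ hr)), k2]
    omega
  · rw [if_neg fun k => k1 (k.imp_left fun a => mem_erase.2 ⟨k2, a⟩), h3 _ k2]
    omega

end Vale.Agent.P305GL
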